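import Vale.Agent.P174.Main

/-!
# Commutative groups, and the consequences of the reduction theorem
-/

namespace Vale.Agent.P174

universe u

open Monoid.Coprod

theorem exists_zpow_of_mem_closure {M : Type*} [CommGroup M] {m : ℕ} (v : Fin m → M) (x : M)
    (hx : x ∈ Subgroup.closure (Set.range v)) : ∃ c : Fin m → ℤ, x = ∏ i, v i ^ c i := by
  classical
  induction hx using Subgroup.closure_induction with
  | mem x hx =>
    obtain ⟨i, rfl⟩ := hx
    refine ⟨Pi.single i 1, ?_⟩
    rw [Finset.prod_eq_single i]
    · simp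
    · intro j _ hj
      simp [hj]
    · simp
  | one => exact ⟨0, by simp⟩
  | mul x y _ _ ihx ihy =>
    obtain ⟨c, rfl⟩ := ihx
    obtain ⟨c', rfl⟩ := ihy
    exact ⟨c + c', by simp [zpow_add, Finset.prod_mul_distrib]⟩
  | inv x _ ih =>
    obtain ⟨c, rfl⟩ := ih
    exact ⟨-c, by simp⟩

/-- Howie's property holds for commutative groups. -/
theorem howieProp_of_comm (B : Type u) [Group B] (hc : ∀ a b : B, a * b = b * a) :
    HowieProp B := by
  intro m n w hw
  rw [solvableOver_iff]
  intro b hb
  let _ : CommGroup B := { (inferInstance : Group B) with mul_comm := hc }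
  let α : Monoid.Coprod B (FreeGroup (Fin n)) →* B × Multiplicative (Fin n → ℤ) :=
    MonoidHom.prod Monoid.Coprod.fst (expSum B n)
  have hle : Subgroup.normalClosure (Set.range w) ≤
      (Subgroup.closure (Set.range fun i => α (w i))).comap α := by
    apply Subgroup.normalClosure_le_normal
    rintro _ ⟨i, rfl⟩
    exact Subgroup.subset_closure ⟨i, rfl⟩
  obtain ⟨c, hcE⟩ := exists_zpow_of_mem_closure _ _ (hle hb)
  have h1 := congrArg Prod.fst hcE
  have h2 := congrArg Prod.snd hcE
  simp only [α, MonoidHom.prod_apply, Monoid.Coprod.fst_apply_inl, Prod.fst_prod, Prod.pow_fst,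
    Prod.snd_prod, Prod.pow_snd] at h1 h2
  have h3 : expSum B n (inl b) = 1 := by simp [expSum]
  rw [h3] at h2
  rw [nonsingular_iff, Fintype.linearIndependent_iff] at hw
  have h4 : ∀ i, ((c i : ℤ) : ℚ) = 0 := by
    apply hw
    funext j
    have h5 := congrArg (fun z => (Multiplicative.toAdd z) j) h2
    simp only [toAdd_one, Pi.zero_apply, toAdd_prod, toAdd_zpow, Finset.sum_apply, Pi.smul_apply,
      smul_eq_mul] at h5
    simp only [Finset.sum_apply, Pi.smul_apply, smul_eq_mul, expMatrix, Pi.zero_apply]
    exact_mod_cast h5.symm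
  have h6 : ∀ i, c i = 0 := fun i => by exact_mod_cast h4 i
  rw [h1]
  simp [h6]

variable {G : Type u} [Group G]

/-- If `G / N` is locally indicable, then a finitely generated subgroup of `G` without nontrivial
homomorphisms to `ℤ` is contained in `N`. -/
theorem le_of_locallyIndicable_quotient (N : Subgroup G) [N.Normal]
    (hQ : LocallyIndicable (G ⧸ N)) (B : Subgroup G) (hfg : B.FG)
    (hB : ∀ φ : B →* Multiplicative ℤ, φ = 1) : B ≤ N := by
  by_contra hle
  let π : G →* G ⧸ N := QuotientGroup.mk' N
  have hne : B.map π ≠ ⊥ := by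
    intro h
    apply hle
    intro x hx
    have : π x ∈ B.map π := Subgroup.mem_map_of_mem π hx
    rw [h, Subgroup.mem_bot] at this
    exact (QuotientGroup.eq_one_iff x).1 this
  have hfg' : (B.map π).FG := by
    obtain ⟨S, hS, hSfin⟩ := (Subgroup.fg_iff B).1 hfg
    refine (Subgroup.fg_iff _).2 ⟨π '' S, ?_, hSfin.image _⟩
    rw [← MonoidHom.map_closure, hS]
  obtain ⟨f, hf⟩ := hQ (B.map π) hfg' hne
  let ρ : B →* B.map π := π.subgroupMap B
  have hρ : Function.Surjective ρ := π.subgroupMap_surjective B
  have h1 := hB (f.comp ρ)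
  obtain ⟨z, hz⟩ := (hf.comp hρ) (Multiplicative.ofAdd 1)
  have h2 : (f.comp ρ) z = 1 := by rw [h1]; rfl
  have h3 : (f.comp ρ) z = Multiplicative.ofAdd 1 := hz
  rw [h2] at h3
  have h4 := congrArg Multiplicative.toAdd h3
  simp at h4

/-- Howie's property is inherited by extensions with locally indicable quotient. -/
theorem howieProp_of_extension (N : Subgroup G) [N.Normal] (hN : HowieProp N)
    (hQ : LocallyIndicable (G ⧸ N)) : HowieProp G := by
  apply howieProp_of_subgroups
  intro B hfg hB
  have hle := le_of_locallyIndicable_quotient N hQ B hfg hB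
  exact HowieProp.of_injective (Subgroup.inclusion hle) (Subgroup.inclusion_injective hle) hN

/-- Howie's property holds for abelian-by-(locally indicable) groups. -/
theorem howieProp_of_abelian_by_locallyIndicable (N : Subgroup G) [N.Normal]
    (hN : ∀ a ∈ N, ∀ b ∈ N, a * b = b * a) (hQ : LocallyIndicable (G ⧸ N)) : HowieProp G := by
  apply howieProp_of_extension N _ hQ
  apply howieProp_of_comm
  rintro ⟨a, ha⟩ ⟨b, hb⟩
  exact Subtype.ext (hN a ha b hb)

end Vale.Agent.P174
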