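import Mathlib

/-!
# Amalgamated products: existence, and injectivity of `B * F → G * F`
-/

namespace Vale.Agent.P174

universe u

/-- A two-member family of types. -/
def Fam (A C : Type u) : Bool → Type u
  | true => A
  | false => C

instance famGroup (A C : Type u) [Group A] [Group C] : ∀ b, Group (Fam A C b)
  | true => inferInstanceAs (Group A)
  | false => inferInstanceAs (Group C)

/-- The two homomorphisms out of the base group as a family. -/
def famHom {H A C : Type u} [Group H] [Group A] [Group C] (f : H →* A) (g : H →* C) :
    ∀ b, H →* Fam A C b
  | true => f
  | false => g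

theorem exists_amalgam {H A C : Type u} [Group H] [Group A] [Group C] (f : H →* A) (g : H →* C)
    (hf : Function.Injective f) (hg : Function.Injective g) :
    ∃ (P : Type u) (_ : Group P) (a : A →* P) (c : C →* P),
      Function.Injective a ∧ Function.Injective c ∧ a.comp f = c.comp g := by
  have hφ : ∀ b, Function.Injective (famHom f g b) := by
    intro b
    cases b
    · exact hg
    · exact hf
  refine ⟨Monoid.PushoutI (famHom f g), inferInstance,
    Monoid.PushoutI.of (φ := famHom f g) true, Monoid.PushoutI.of (φ := famHom f g) false,
    Monoid.PushoutI.of_injective hφ true, Monoid.PushoutI.of_injective hφ false, ?_⟩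
  have h1 := Monoid.PushoutI.of_comp_eq_base (φ := famHom f g) true
  have h2 := Monoid.PushoutI.of_comp_eq_base (φ := famHom f g) false
  exact h1.trans h2.symm

/-- The natural map `B * N → G * N` induced by an injective homomorphism `B → G` is injective. -/
theorem coprod_map_injective {B G : Type u} {N : Type} [Group B] [Group G] [Group N] (f : B →* G)
    (hf : Function.Injective f) :
    Function.Injective (Monoid.Coprod.map f (MonoidHom.id N)) := by
  obtain ⟨P, _, a, c, _, hc, hac⟩ :=
    exists_amalgam f (Monoid.Coprod.inl : B →* Monoid.Coprod B N) hf Monoid.Coprod.inl_injective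
  have key : (Monoid.Coprod.lift a (c.comp Monoid.Coprod.inr)).comp
      (Monoid.Coprod.map f (MonoidHom.id N)) = c := by
    apply Monoid.Coprod.hom_ext
    · ext b
      simpa using DFunLike.congr_fun hac b
    · ext x
      simp
  intro x y hxy
  apply hc
  rw [← key]
  simp [hxy]

end Vale.Agent.P174
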