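import Mathlib

/-!
# Howie's conjecture: basic definitions

Finite systems of equations over a group `G` in the unknowns `x_0, ..., x_{n-1}` are families
`w : Fin m → Monoid.Coprod G (FreeGroup (Fin n))`.
-/

namespace Vale.Agent.P174

universe u

/-- The exponent-sum homomorphism `G * F_n → ℤ^n`: it kills `G` and sends `x_j` to `e_j`. -/
noncomputable def expSum (G : Type u) [Group G] (n : ℕ) :
    Monoid.Coprod G (FreeGroup (Fin n)) →* Multiplicative (Fin n → ℤ) :=
  Monoid.Coprod.lift 1 (FreeGroup.lift fun j => Multiplicative.ofAdd (Pi.single j (1 : ℤ)))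

/-- The exponent-sum matrix of a finite system, with entries read in `ℚ`. -/
noncomputable def expMatrix {G : Type u} [Group G] {m n : ℕ}
    (w : Fin m → Monoid.Coprod G (FreeGroup (Fin n))) : Matrix (Fin m) (Fin n) ℚ :=
  fun i j => ((Multiplicative.toAdd (expSum G n (w i)) j : ℤ) : ℚ)

/-- A system of `m` equations is nonsingular if its exponent-sum matrix has rank `m` over `ℚ`. -/
def Nonsingular {G : Type u} [Group G] {m n : ℕ}
    (w : Fin m → Monoid.Coprod G (FreeGroup (Fin n))) : Prop :=
  (expMatrix w).rank = m

/-- A system is solvable over `G` if some group `H` containing `G` (via an injective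
homomorphism) contains elements `h_j` at which every `w_i` evaluates to `1`. -/
def SolvableOver {G : Type u} [Group G] {m n : ℕ}
    (w : Fin m → Monoid.Coprod G (FreeGroup (Fin n))) : Prop :=
  ∃ (H : Type u) (_ : Group H) (f : G →* H) (h : Fin n → H), Function.Injective f ∧
    ∀ i, Monoid.Coprod.lift f (FreeGroup.lift h) (w i) = 1

/-- `HowieProp G`: every nonsingular finite system of equations over `G` is solvable over `G`. -/
def HowieProp (G : Type u) [Group G] : Prop :=
  ∀ (m n : ℕ) (w : Fin m → Monoid.Coprod G (FreeGroup (Fin n))), Nonsingular w → SolvableOver w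

/-- A group is locally indicable if every nontrivial finitely generated subgroup maps onto `ℤ`. -/
def LocallyIndicable (Q : Type u) [Group Q] : Prop :=
  ∀ H : Subgroup Q, H.FG → H ≠ ⊥ → ∃ f : H →* Multiplicative ℤ, Function.Surjective f

end Vale.Agent.P174
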