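import Vale.Agent.P174.Defs

/-!
# Reformulations of the basic notions and systems with arbitrary index types
-/

namespace Vale.Agent.P174

universe u

open Monoid.Coprod

variable {G : Type u} [Group G]

theorem nonsingular_iff {m n : ℕ} (w : Fin m → Monoid.Coprod G (FreeGroup (Fin n))) :
    Nonsingular w ↔ LinearIndependent ℚ (fun i => expMatrix w i) := by
  unfold Nonsingular
  rw [Matrix.rank_eq_finrank_span_row, linearIndependent_iff_card_eq_finrank_span, Set.finrank,
    Fintype.card_fin]
  exact eq_comm

theorem solvableOver_iff {m n : ℕ} (w : Fin m → Monoid.Coprod G (FreeGroup (Fin n))) :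
    SolvableOver w ↔ ∀ b : G, (inl b : Monoid.Coprod G (FreeGroup (Fin n))) ∈
      Subgroup.normalClosure (Set.range w) → b = 1 := by
  constructor
  · rintro ⟨H, _, f, h, hf, hw⟩ b hb
    have hle : Subgroup.normalClosure (Set.range w) ≤
        (Monoid.Coprod.lift f (FreeGroup.lift h)).ker := by
      apply Subgroup.normalClosure_le_normal
      rintro _ ⟨i, rfl⟩
      exact hw i
    have h1 := hle hb
    rw [MonoidHom.mem_ker, Monoid.Coprod.lift_apply_inl] at h1
    exact hf (h1.trans (map_one f).symm)
  · intro h
    refine ⟨_ ⧸ Subgroup.normalClosure (Set.range w), inferInstance,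
      (QuotientGroup.mk' _).comp inl, fun j => QuotientGroup.mk (inr (FreeGroup.of j)), ?_, ?_⟩
    · rw [injective_iff_map_eq_one]
      intro b hb
      apply h b
      simpa using hb
    · intro i
      have key : Monoid.Coprod.lift ((QuotientGroup.mk' (Subgroup.normalClosure (Set.range w))).comp inl)
          (FreeGroup.lift fun j => (QuotientGroup.mk (inr (FreeGroup.of j)) :
            _ ⧸ Subgroup.normalClosure (Set.range w))) = QuotientGroup.mk' _ := by
        apply Monoid.Coprod.hom_ext
        · ext b
          simp
        · ext j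
          simp
      rw [key]
      simpa using Subgroup.subset_normalClosure (Set.mem_range_self i)

/-- The rational exponent-sum homomorphism for an arbitrary set of unknowns. -/
noncomputable def expoQ (G : Type u) [Group G] (X : Type) :
    Monoid.Coprod G (FreeGroup X) →* Multiplicative (X →₀ ℚ) :=
  Monoid.Coprod.lift 1 (FreeGroup.lift fun x => Multiplicative.ofAdd (Finsupp.single x (1 : ℚ)))

/-- The exponent-sum row of an element of `G * F(X)`. -/
noncomputable def rowQ {X : Type} (a : Monoid.Coprod G (FreeGroup X)) : X →₀ ℚ :=
  Multiplicative.toAdd (expoQ G X a)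

section rowQ

variable {X : Type}

@[simp] theorem rowQ_one : rowQ (1 : Monoid.Coprod G (FreeGroup X)) = 0 := by
  simp [rowQ]

@[simp] theorem rowQ_mul (a b : Monoid.Coprod G (FreeGroup X)) :
    rowQ (a * b) = rowQ a + rowQ b := by
  simp [rowQ]

@[simp] theorem rowQ_inv (a : Monoid.Coprod G (FreeGroup X)) : rowQ a⁻¹ = - rowQ a := by
  simp [rowQ]

@[simp] theorem rowQ_inl (g : G) : rowQ (inl g : Monoid.Coprod G (FreeGroup X)) = 0 := by
  simp [rowQ, expoQ]

@[simp] theorem rowQ_inr_of (x : X) :
    rowQ (inr (FreeGroup.of x) : Monoid.Coprod G (FreeGroup X)) = Finsupp.single x 1 := by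
  simp [rowQ, expoQ]

end rowQ

/-- The version of Howie's property for systems indexed by arbitrary (finite) types with an
arbitrary type of unknowns, in the normal closure formulation. -/
def GenProp (B : Type u) [Group B] : Prop :=
  ∀ (ι X : Type) [Finite ι] (a : ι → Monoid.Coprod B (FreeGroup X)),
    LinearIndependent ℚ (fun i => rowQ (a i)) →
    ∀ b : B, (inl b : Monoid.Coprod B (FreeGroup X)) ∈ Subgroup.normalClosure (Set.range a) →
      b = 1

theorem HowieProp.gen {B : Type u} [Group B] (hB : HowieProp B) : GenProp B := by
  intro ι X _ a hli b hb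
  classical
  cases nonempty_fintype ι
  let T : Finset X := Finset.univ.biUnion (fun i => (rowQ (a i)).support)
  let n := T.card
  let eT : T ≃ Fin n := T.equivFin
  let m := Fintype.card ι
  let eι : ι ≃ Fin m := Fintype.equivFin ι
  let θF : FreeGroup X →* Monoid.Coprod B (FreeGroup (Fin n)) :=
    FreeGroup.lift (fun x => if h : x ∈ T then inr (FreeGroup.of (eT ⟨x, h⟩)) else 1)
  let θ : Monoid.Coprod B (FreeGroup X) →* Monoid.Coprod B (FreeGroup (Fin n)) :=
    Monoid.Coprod.lift inl θF
  let w : Fin m → Monoid.Coprod B (FreeGroup (Fin n)) := fun k => θ (a (eι.symm k))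
  -- the exponent formula
  have hform : ∀ (z : Monoid.Coprod B (FreeGroup X)) (j : Fin n),
      ((Multiplicative.toAdd (expSum B n (θ z)) j : ℤ) : ℚ) = rowQ z (eT.symm j : X) := by
    intro z j
    induction z using Monoid.Coprod.induction_on with
    | inl g => simp [θ, expSum]
    | inr f =>
      induction f using FreeGroup.induction_on with
      | C1 => simp
      | of x =>
        by_cases hx : x ∈ T
        · simp only [θ, θF, Monoid.Coprod.lift_apply_inr, FreeGroup.lift_apply_of, hx, dif_pos,
            expSum, toAdd_ofAdd, rowQ_inr_of]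
          by_cases hj : eT ⟨x, hx⟩ = j
          · subst hj
            simp
          · have : x ≠ (eT.symm j : X) := by
              intro h
              apply hj
              have : (⟨x, hx⟩ : T) = eT.symm j := Subtype.ext h
              rw [this]; simp
            simp [Pi.single_apply, Finsupp.single_apply, this, Ne.symm hj]
        · have : x ≠ (eT.symm j : X) := by
            intro h
            exact hx (h ▸ (eT.symm j).2)
          simp [θ, θF, hx, Finsupp.single_apply, this]
      | inv_of x ih =>
        simpa [map_inv] using ih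
      | mul x y ihx ihy =>
        simp only [map_mul, toAdd_mul, Pi.add_apply, Int.cast_add, rowQ_mul, Finsupp.add_apply]
          at ihx ihy ⊢
        rw [ihx, ihy]
    | mul x y ihx ihy =>
      simp only [map_mul, toAdd_mul, Pi.add_apply, Int.cast_add, rowQ_mul, Finsupp.add_apply]
        at ihx ihy ⊢
      rw [ihx, ihy]
  have hw : Nonsingular w := by
    rw [nonsingular_iff]
    let Rst : (X →₀ ℚ) →ₗ[ℚ] (Fin n → ℚ) :=
      LinearMap.pi (fun j => Finsupp.lapply (eT.symm j : X))
    have hsupp : Submodule.span ℚ (Set.range fun i => rowQ (a i)) ≤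
        Finsupp.supported ℚ ℚ (T : Set X) := by
      rw [Submodule.span_le]
      rintro _ ⟨i, rfl⟩
      rw [SetLike.mem_coe, Finsupp.mem_supported]
      intro x hx
      exact Finset.mem_biUnion.2 ⟨i, Finset.mem_univ _, hx⟩
    have hinj : Set.InjOn Rst (Submodule.span ℚ (Set.range fun i => rowQ (a i))) := by
      intro u hu v hv huv
      have hu' := (Finsupp.mem_supported' ℚ u).1 (hsupp hu)
      have hv' := (Finsupp.mem_supported' ℚ v).1 (hsupp hv)
      ext x
      by_cases hx : x ∈ T
      · have := congrFun huv (eT ⟨x, hx⟩)
        simpa [Rst] using this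
      · rw [hu' x hx, hv' x hx]
    have h1 := (hli.map_injOn Rst hinj).comp eι.symm eι.symm.injective
    convert h1 using 1
    funext k j
    simp only [expMatrix, w, Function.comp, Rst, LinearMap.pi_apply, Finsupp.lapply_apply]
    exact hform _ j
  have hmem : (inl b : Monoid.Coprod B (FreeGroup (Fin n))) ∈
      Subgroup.normalClosure (Set.range w) := by
    have hle : Subgroup.normalClosure (Set.range a) ≤
        (Subgroup.normalClosure (Set.range w)).comap θ := by
      apply Subgroup.normalClosure_le_normal
      rintro _ ⟨i, rfl⟩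
      apply Subgroup.subset_normalClosure
      exact ⟨eι i, by simp [w]⟩
    have := hle hb
    simpa [θ] using this
  exact (solvableOver_iff w).1 (hB m n w hw) b hmem

theorem HowieProp.of_injective {B : Type u} [Group B] (f : B →* G) (hf : Function.Injective f)
    (hG : HowieProp G) : HowieProp B := by
  intro m n w hw
  let w' : Fin m → Monoid.Coprod G (FreeGroup (Fin n)) :=
    fun i => Monoid.Coprod.map f (MonoidHom.id _) (w i)
  have hexp : (expSum G n).comp (Monoid.Coprod.map f (MonoidHom.id _)) = expSum B n := by
    apply Monoid.Coprod.hom_ext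
    · ext b
      simp [expSum]
    · ext j
      simp [expSum]
  have hM : expMatrix w' = expMatrix w := by
    funext i j
    have := DFunLike.congr_fun hexp (w i)
    simp only [expMatrix, w']
    rw [← this]
    rfl
  have hw' : Nonsingular w' := by
    unfold Nonsingular at hw ⊢
    rw [hM]; exact hw
  obtain ⟨H, _, F, h, hF, hev⟩ := hG m n w' hw'
  refine ⟨H, inferInstance, F.comp f, h, hF.comp hf, ?_⟩
  intro i
  have hcomp : Monoid.Coprod.lift (F.comp f) (FreeGroup.lift h) =
      (Monoid.Coprod.lift F (FreeGroup.lift h)).comp (Monoid.Coprod.map f (MonoidHom.id _)) := by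
    apply Monoid.Coprod.hom_ext
    · ext b
      simp
    · ext j
      simp
  rw [hcomp]
  exact hev i

end Vale.Agent.P174
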