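import Mathlib

/-!
# Linear independence of the rows of a lifted system

If the rows `r i` are linearly independent and `J i` is a finitely supported function on `X × ℚ`
that projects to `r i`, then all the translates of the `J i` in the `ℚ`-direction are linearly
independent.  The proof uses that the group algebra `ℚ[ℚ]` is a commutative domain.
-/

namespace Vale.Agent.P174

open Finsupp

theorem lifted_linearIndependent {ι X : Type} (r : ι → X →₀ ℚ) (hr : LinearIndependent ℚ r)
    (J : ι → (X × ℚ) →₀ ℚ) (hJ : ∀ i, (J i).mapDomain Prod.fst = r i) :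
    LinearIndependent ℚ
      (fun ip : ι × ℚ => (J ip.1).mapDomain (fun z : X × ℚ => (z.1, z.2 + ip.2))) := by
  classical
  obtain ⟨β, hβ⟩ := LinearMap.exists_leftInverse_of_injective (Finsupp.linearCombination ℚ r)
    (LinearMap.ker_eq_bot.2 hr)
  have hβ' : ∀ i, β (r i) = Finsupp.single i 1 := by
    intro i
    have := LinearMap.congr_fun hβ (Finsupp.single i 1)
    simpa using this
  -- the maps `T j`
  let T : ι → ((X × ℚ) →₀ ℚ) →ₗ[ℚ] AddMonoidAlgebra ℚ ℚ := fun j =>
    Finsupp.linearCombination ℚ
      (fun z : X × ℚ => AddMonoidAlgebra.single z.2 (β (Finsupp.single z.1 1) j))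
  have hT1 : ∀ (j : ι) (p : ℚ) (v : (X × ℚ) →₀ ℚ),
      T j (v.mapDomain (fun z : X × ℚ => (z.1, z.2 + p))) =
        AddMonoidAlgebra.single p 1 * T j v := by
    intro j p v
    induction v using Finsupp.induction_linear with
    | zero => simp
    | add f g hf hg => rw [Finsupp.mapDomain_add, map_add, map_add, hf, hg, mul_add]
    | single z c =>
      simp only [T, Finsupp.mapDomain_single, Finsupp.linearCombination_single,
        AddMonoidAlgebra.smul_single, AddMonoidAlgebra.single_mul_single, one_mul]
      rw [add_comm]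
  let ε : AddMonoidAlgebra ℚ ℚ →ₐ[ℚ] ℚ := AddMonoidAlgebra.lift ℚ ℚ ℚ 1
  have hε : ∀ (p c : ℚ), ε (AddMonoidAlgebra.single p c) = c := by
    intro p c
    simp [ε, AddMonoidAlgebra.lift_single]
  have hT2 : ∀ (j : ι) (v : (X × ℚ) →₀ ℚ), ε (T j v) = β (v.mapDomain Prod.fst) j := by
    intro j v
    induction v using Finsupp.induction_linear with
    | zero => simp
    | add f g hf hg =>
      rw [Finsupp.mapDomain_add, map_add, map_add, map_add, hf, hg, Finsupp.add_apply]
    | single z c =>
      simp only [T, Finsupp.mapDomain_single, Finsupp.linearCombination_single,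
        AddMonoidAlgebra.smul_single, hε]
      have : (Finsupp.single z.1 c : X →₀ ℚ) = c • Finsupp.single z.1 1 := by simp
      rw [this, map_smul, Finsupp.smul_apply]
  clear_value T
  rw [linearIndependent_iff]
  intro c hc
  let S : Finset ι := c.support.image Prod.fst
  let C : ι → AddMonoidAlgebra ℚ ℚ := fun i =>
    ∑ ip ∈ c.support with ip.1 = i, AddMonoidAlgebra.single ip.2 (c ip)
  have hsum : ∀ j : ι, ∑ i ∈ S, C i * T j (J i) = 0 := by
    intro j
    rw [Finsupp.linearCombination_apply, Finsupp.sum] at hc
    have h0 := congrArg (T j) hc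
    rw [map_zero, map_sum] at h0
    rw [← h0, ← Finset.sum_fiberwise_of_maps_to (s := c.support) (t := S) (g := Prod.fst)
      (fun ip hip => Finset.mem_image_of_mem _ hip)]
    apply Finset.sum_congr rfl
    intro i _
    rw [Finset.sum_mul]
    apply Finset.sum_congr rfl
    intro ip hip
    have hi : ip.1 = i := (Finset.mem_filter.1 hip).2
    rw [map_smul, hT1, hi, ← smul_mul_assoc, AddMonoidAlgebra.smul_single, smul_eq_mul, mul_one]
  let N : Matrix S S (AddMonoidAlgebra ℚ ℚ) := fun i j => T j.1 (J i.1)
  have hdet : N.det ≠ 0 := by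
    intro h
    have h1 : (ε : AddMonoidAlgebra ℚ ℚ →+* ℚ) N.det = 1 := by
      rw [RingHom.map_det]
      have : (ε : AddMonoidAlgebra ℚ ℚ →+* ℚ).mapMatrix N = 1 := by
        ext i j
        rw [RingHom.mapMatrix_apply, Matrix.map_apply]
        change ε (T j.1 (J i.1)) = _
        rw [hT2, hJ, hβ', Matrix.one_apply, Finsupp.single_apply]
        by_cases hij : i = j
        · simp [hij]
        · have : i.1 ≠ j.1 := fun h => hij (Subtype.ext h)
          simp [hij, this]
      rw [this, Matrix.det_one]
    rw [h, map_zero] at h1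
    exact zero_ne_one h1
  have hvec : Matrix.vecMul (fun i : S => C i.1) N = 0 := by
    funext j
    simp only [Matrix.vecMul, dotProduct, N, Pi.zero_apply]
    rw [← hsum j.1, ← Finset.sum_coe_sort S (fun i => C i * T j.1 (J i))]
  have hC := Matrix.eq_zero_of_vecMul_eq_zero hdet hvec
  ext ⟨i, p⟩
  by_cases hip : (i, p) ∈ c.support
  · have hiS : i ∈ S := Finset.mem_image_of_mem Prod.fst hip
    have hCi : C i = 0 := congrFun hC ⟨i, hiS⟩
    have h2 := congrArg (fun z : AddMonoidAlgebra ℚ ℚ => z.coeff p) hCi
    simp only [C, AddMonoidAlgebra.coeff_sum, AddMonoidAlgebra.coeff_single,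
      Finsupp.finsetSum_apply, AddMonoidAlgebra.coeff_zero, Finsupp.coe_zero,
      Pi.zero_apply] at h2
    rw [Finset.sum_eq_single (i, p)] at h2
    · simpa using h2
    · intro b hb hne
      have hb1 : b.1 = i := (Finset.mem_filter.1 hb).2
      have : b.2 ≠ p := by
        intro h
        apply hne
        exact Prod.ext hb1 h
      simp [Finsupp.single_apply, this]
    · intro h
      exact absurd (Finset.mem_filter.2 ⟨hip, rfl⟩ :
        (i, p) ∈ c.support.filter (fun ip => ip.1 = i)) h
  · simpa using hip

end Vale.Agent.P174
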