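import Vale.Agent.P174.Words
import Vale.Agent.P174.Amalgam

/-!
# Lifting words and witnesses to a `ℚ`-graded cover

Given a function `ψ` on coefficients, levels `lam` of the unknowns and an arbitrary function
`τ : ℚ → G`, words over `(G, X)` are lifted to words over `(G, X × ℚ)`.  When `ψ` comes from a
homomorphism on a subgroup `B` containing all the coefficients, the lift is induced by a
homomorphism from `B * F(X)` to a wreath-like semidirect product.
-/

namespace Vale.Agent.P174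

universe u

open Monoid.Coprod

variable {G : Type u} [Group G] {X ι : Type}

/-- The translation action of `ℚ` on functions `ℚ → M`. -/
def shiftAut (M : Type u) [Group M] : Multiplicative ℚ →* MulAut (ℚ → M) where
  toFun p :=
    { toFun := fun f q => f (q - Multiplicative.toAdd p)
      invFun := fun f q => f (q + Multiplicative.toAdd p)
      left_inv := fun f => by funext q; simp
      right_inv := fun f => by funext q; simp
      map_mul' := fun _ _ => rfl }
  map_one' := by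
    ext f q
    simp
  map_mul' p p' := by
    ext f q
    simp [sub_sub]

@[simp] theorem shiftAut_apply (M : Type u) [Group M] (p : Multiplicative ℚ) (f : ℚ → M) (q : ℚ) :
    shiftAut M p f q = f (q - Multiplicative.toAdd p) := rfl

/-- The level change caused by a letter. -/
def lvlL (ψ : G → ℚ) (lam : X → ℚ) : Letter G X → ℚ
  | .inl y => ψ y
  | .inr (x, true) => lam x
  | .inr (x, false) => - lam x

/-- The total level change of a word. -/
def lvl (ψ : G → ℚ) (lam : X → ℚ) (l : List (Letter G X)) : ℚ := (l.map (lvlL ψ lam)).sum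

@[simp] theorem lvl_nil (ψ : G → ℚ) (lam : X → ℚ) : lvl ψ lam [] = 0 := rfl

@[simp] theorem lvl_cons (ψ : G → ℚ) (lam : X → ℚ) (c : Letter G X) (l : List (Letter G X)) :
    lvl ψ lam (c :: l) = lvlL ψ lam c + lvl ψ lam l := by
  simp [lvl]

/-- The lift of a letter read at level `q`. -/
def liftLetter (ψ : G → ℚ) (lam : X → ℚ) (τ : ℚ → G) (q : ℚ) : Letter G X → Letter G (X × ℚ)
  | .inl y => .inl ((τ q)⁻¹ * y * τ (q - ψ y))
  | .inr (x, true) => .inr ((x, q), true)
  | .inr (x, false) => .inr ((x, q + lam x), false)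

/-- The lift of a word read from level `q`. -/
def liftL (ψ : G → ℚ) (lam : X → ℚ) (τ : ℚ → G) : ℚ → List (Letter G X) → List (Letter G (X × ℚ))
  | _, [] => []
  | q, c :: l => liftLetter ψ lam τ q c :: liftL ψ lam τ (q - lvlL ψ lam c) l

@[simp] theorem liftL_nil (ψ : G → ℚ) (lam : X → ℚ) (τ : ℚ → G) (q : ℚ) :
    liftL ψ lam τ q [] = [] := rfl

@[simp] theorem liftL_cons (ψ : G → ℚ) (lam : X → ℚ) (τ : ℚ → G) (q : ℚ) (c : Letter G X)
    (l : List (Letter G X)) :
    liftL ψ lam τ q (c :: l) = liftLetter ψ lam τ q c :: liftL ψ lam τ (q - lvlL ψ lam c) l := rfl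

/-! ### Rows of lifted words -/

theorem rowQ_evL_inl (y : G) : rowQ (evL (.inl y : Letter G X)) = 0 := by simp [evL]

theorem rowQ_evL_true (x : X) : rowQ (evL (.inr (x, true) : Letter G X)) = Finsupp.single x 1 := by
  simp [evL]

theorem rowQ_evL_false (x : X) :
    rowQ (evL (.inr (x, false) : Letter G X)) = Finsupp.single x (-1) := by
  simp [evL]

theorem rowQ_lift_shift (ψ : G → ℚ) (lam : X → ℚ) (τ : ℚ → G) (p : ℚ) (l : List (Letter G X)) :
    ∀ q : ℚ, rowQ (ev (liftL ψ lam τ (q + p) l)) =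
      (rowQ (ev (liftL ψ lam τ q l))).mapDomain (fun z : X × ℚ => (z.1, z.2 + p)) := by
  induction l with
  | nil => intro q; simp
  | cons c l ih =>
    intro q
    have hq : q + p - lvlL ψ lam c = (q - lvlL ψ lam c) + p := by ring
    rw [liftL_cons, liftL_cons, ev_cons, ev_cons, rowQ_mul, rowQ_mul, Finsupp.mapDomain_add, hq, ih]
    congr 1
    rcases c with y | ⟨x, s⟩
    · simp [liftLetter, rowQ_evL_inl]
    · cases s
      · simp only [liftLetter, rowQ_evL_false, Finsupp.mapDomain_single]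
        congr 2
        ring
      · simp only [liftLetter, rowQ_evL_true, Finsupp.mapDomain_single]

theorem rowQ_lift_fst (ψ : G → ℚ) (lam : X → ℚ) (τ : ℚ → G) (l : List (Letter G X)) :
    ∀ q : ℚ, (rowQ (ev (liftL ψ lam τ q l))).mapDomain Prod.fst = rowQ (ev l) := by
  induction l with
  | nil => intro q; simp
  | cons c l ih =>
    intro q
    rw [liftL_cons, ev_cons, ev_cons, rowQ_mul, rowQ_mul, Finsupp.mapDomain_add, ih]
    congr 1
    rcases c with y | ⟨x, s⟩
    · simp [liftLetter, rowQ_evL_inl]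
    · cases s
      · simp only [liftLetter, rowQ_evL_false, Finsupp.mapDomain_single]
      · simp only [liftLetter, rowQ_evL_true, Finsupp.mapDomain_single]

/-- The sum of the `ψ`-values of the coefficients of a word. -/
def csum (ψ : G → ℚ) (l : List (Letter G X)) : ℚ :=
  (l.map fun c => Sum.elim ψ (fun _ => 0) c).sum

theorem lvl_eq (ψ : G → ℚ) (L : (X →₀ ℚ) →ₗ[ℚ] ℚ) (l : List (Letter G X)) :
    lvl ψ (fun x => L (Finsupp.single x 1)) l = csum ψ l + L (rowQ (ev l)) := by
  induction l with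
  | nil => simp [csum]
  | cons c l ih =>
    rw [lvl_cons, ih, ev_cons, rowQ_mul, map_add]
    have : csum ψ (c :: l) = Sum.elim ψ (fun _ => 0) c + csum ψ l := by simp [csum]
    rw [this]
    rcases c with y | ⟨x, s⟩
    · simp only [lvlL, rowQ_evL_inl, map_zero, Sum.elim_inl]
      ring
    · cases s
      · have h1 : (Finsupp.single x (-1) : X →₀ ℚ) = - Finsupp.single x 1 := by simp
        simp only [lvlL, rowQ_evL_false, h1, map_neg, Sum.elim_inr]
        ring
      · simp only [lvlL, rowQ_evL_true, Sum.elim_inr]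
        ring

/-! ### The complexity does not increase, and can be made to decrease -/

theorem cntL_lift_le (ψ : G → ℚ) (hψ : ψ 1 = 0) (lam : X → ℚ) (τ : ℚ → G) (q : ℚ)
    (c : Letter G X) : cntL (liftLetter ψ lam τ q c) ≤ cntL c := by
  rcases c with y | ⟨x, s⟩
  · by_cases hy : y = 1
    · subst hy
      simp [liftLetter, cntL, hψ]
    · simp only [liftLetter, cntL, hy, if_false]
      split_ifs <;> simp
  · cases s <;> simp [liftLetter, cntL]

theorem cnt_lift_le (ψ : G → ℚ) (hψ : ψ 1 = 0) (lam : X → ℚ) (τ : ℚ → G)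
    (l : List (Letter G X)) : ∀ q : ℚ, cnt (liftL ψ lam τ q l) ≤ cnt l := by
  induction l with
  | nil => intro q; simp
  | cons c l ih =>
    intro q
    rw [liftL_cons, cnt_cons, cnt_cons]
    exact add_le_add (cntL_lift_le ψ hψ lam τ q c) (ih _)

theorem exists_cnt_lift_lt (ψ : G → ℚ) (hψ : ψ 1 = 0) (lam : X → ℚ) (l : List (Letter G X)) :
    ∀ q : ℚ, (∃ y : G, (Sum.inl y : Letter G X) ∈ l ∧ ψ y ≠ 0) →
      ∃ (y₀ : G) (q₀ : ℚ), ψ y₀ ≠ 0 ∧ ∀ τ : ℚ → G, τ q₀ = y₀ * τ (q₀ - ψ y₀) →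
        cnt (liftL ψ lam τ q l) < cnt l := by
  induction l with
  | nil =>
    rintro q ⟨y, hy, _⟩
    simp at hy
  | cons c l ih =>
    rintro q ⟨y, hy, hne⟩
    by_cases hc : c = Sum.inl y
    · subst hc
      refine ⟨y, q, hne, fun τ hτ => ?_⟩
      rw [liftL_cons, cnt_cons, cnt_cons]
      have h1 : cntL (liftLetter ψ lam τ q (Sum.inl y : Letter G X)) = 0 := by
        simp [liftLetter, cntL, hτ, mul_assoc]
      have h2 : cntL (Sum.inl y : Letter G X) = 1 := by
        have : y ≠ 1 := by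
          rintro rfl
          exact hne hψ
        simp [cntL, this]
      have h3 := cnt_lift_le ψ hψ lam τ l (q - lvlL ψ lam (Sum.inl y : Letter G X))
      omega
    · have hy' : (Sum.inl y : Letter G X) ∈ l := by
        rcases List.mem_cons.1 hy with h | h
        · exact absurd h.symm hc
        · exact h
      obtain ⟨y₀, q₀, h0, h⟩ := ih (q - lvlL ψ lam c) ⟨y, hy', hne⟩
      refine ⟨y₀, q₀, h0, fun τ hτ => ?_⟩
      rw [liftL_cons, cnt_cons, cnt_cons]
      exact add_lt_add_of_le_of_lt (cntL_lift_le ψ hψ lam τ q c) (h τ hτ)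

/-- The lifted system of equations. -/
def liftEq (ψ : G → ℚ) (lam : X → ℚ) (τ : ℚ → G) (eq : ι → List (Letter G X)) :
    ι × ℚ → List (Letter G (X × ℚ)) :=
  fun ip => liftL ψ lam τ ip.2 (eq ip.1)

/-- The lift of a factor of a witness. -/
def liftFac (ψ : G → ℚ) (lam : X → ℚ) (τ : ℚ → G) (f : Fac G X ι) : Fac G (X × ℚ) (ι × ℚ) :=
  (liftL ψ lam τ 0 f.1, (f.2.1, 0 - lvl ψ lam f.1), f.2.2)

theorem cost_lift_le (ψ : G → ℚ) (hψ : ψ 1 = 0) (lam : X → ℚ) (τ : ℚ → G)
    (eq : ι → List (Letter G X)) (fs : List (Fac G X ι)) :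
    cost (liftEq ψ lam τ eq) (fs.map (liftFac ψ lam τ)) ≤ cost eq fs := by
  induction fs with
  | nil => simp
  | cons f fs ih =>
    rw [List.map_cons, cost_cons, cost_cons]
    exact add_le_add (add_le_add (cnt_lift_le ψ hψ lam τ _ _) (cnt_lift_le ψ hψ lam τ _ _)) ih

theorem exists_cost_lift_lt (ψ : G → ℚ) (hψ : ψ 1 = 0) (lam : X → ℚ)
    (eq : ι → List (Letter G X)) (fs : List (Fac G X ι))
    (h : ∃ y ∈ coefSet eq fs, ψ y ≠ 0) :
    ∃ (y₀ : G) (q₀ : ℚ), ψ y₀ ≠ 0 ∧ ∀ τ : ℚ → G, τ q₀ = y₀ * τ (q₀ - ψ y₀) →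
      cost (liftEq ψ lam τ eq) (fs.map (liftFac ψ lam τ)) < cost eq fs := by
  induction fs with
  | nil =>
    obtain ⟨y, ⟨f, hf, _⟩, _⟩ := h
    simp at hf
  | cons f fs ih =>
    obtain ⟨y, ⟨f', hf', hy⟩, hne⟩ := h
    rcases List.mem_cons.1 hf' with rfl | hf'
    · rcases hy with hy | hy
      · obtain ⟨y₀, q₀, h0, h⟩ := exists_cnt_lift_lt ψ hψ lam f'.1 0 ⟨y, hy, hne⟩
        refine ⟨y₀, q₀, h0, fun τ hτ => ?_⟩
        rw [List.map_cons, cost_cons, cost_cons]
        exact add_lt_add_of_lt_of_le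
          (add_lt_add_of_lt_of_le (h τ hτ) (cnt_lift_le ψ hψ lam τ _ _))
          (cost_lift_le ψ hψ lam τ eq fs)
      · obtain ⟨y₀, q₀, h0, h⟩ :=
          exists_cnt_lift_lt ψ hψ lam (eq f'.2.1) (0 - lvl ψ lam f'.1) ⟨y, hy, hne⟩
        refine ⟨y₀, q₀, h0, fun τ hτ => ?_⟩
        rw [List.map_cons, cost_cons, cost_cons]
        exact add_lt_add_of_lt_of_le
          (add_lt_add_of_le_of_lt (cnt_lift_le ψ hψ lam τ _ _) (h τ hτ))
          (cost_lift_le ψ hψ lam τ eq fs)
    · obtain ⟨y₀, q₀, h0, h⟩ := ih ⟨y, ⟨f', hf', hy⟩, hne⟩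
      refine ⟨y₀, q₀, h0, fun τ hτ => ?_⟩
      rw [List.map_cons, cost_cons, cost_cons]
      exact add_lt_add_of_le_of_lt
        (add_le_add (cnt_lift_le ψ hψ lam τ _ _) (cnt_lift_le ψ hψ lam τ _ _)) (h τ hτ)

end Vale.Agent.P174
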