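import Vale.Agent.P174.Phi
import Vale.Agent.P174.Indep

/-!
# The reduction theorem

Howie's property for a group `G` follows from Howie's property for the finitely generated
subgroups of `G` that admit no nontrivial homomorphism to `ℤ`.
-/

namespace Vale.Agent.P174

universe u

open Monoid.Coprod

variable {G : Type u} [Group G]

theorem base_case {X ι : Type} (B : Subgroup G) (hB : GenProp B)
    (eq : ι → List (Letter G X)) (fs : List (Fac G X ι)) (g : G) (hsub : coefSet eq fs ⊆ B)
    (hli : LinearIndependent ℚ (fun i => rowQ (ev (eq i))))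
    (hg : (inl g : Monoid.Coprod G (FreeGroup X)) = facProd eq fs) : g = 1 := by
  classical
  let S : Set ι := (fun f : Fac G X ι => f.2.1) '' {f | f ∈ fs}
  have hfin : S.Finite := (List.finite_toSet fs).image _
  have : Finite S := hfin.to_subtype
  have hpull : ∀ l : List (Letter G X), (∀ y : G, (Sum.inl y : Letter G X) ∈ l → y ∈ B) →
      ∃ a : Monoid.Coprod B (FreeGroup X), jmap X B a = ev l := by
    intro l hl
    obtain ⟨a, ha, _⟩ := pull_word B 1 (fun _ => 0) (fun _ => 1) l hl
    exact ⟨a, ha⟩
  have hex : ∀ i : S, ∃ a : Monoid.Coprod B (FreeGroup X), jmap X B a = ev (eq i.1) := by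
    rintro ⟨i, f, hf, rfl⟩
    exact hpull _ fun y hy => hsub ⟨f, hf, Or.inr hy⟩
  choose a ha using hex
  have key : ∀ fs' : List (Fac G X ι), (∀ f ∈ fs', f ∈ fs) →
      ∃ A : Monoid.Coprod B (FreeGroup X), jmap X B A = facProd eq fs' ∧
        A ∈ Subgroup.normalClosure (Set.range a) := by
    intro fs'
    induction fs' with
    | nil => exact fun _ => ⟨1, by simp, Subgroup.one_mem _⟩
    | cons f fs' ih =>
      intro hf
      obtain ⟨A, hA1, hA2⟩ := ih fun f' hf' => hf f' (List.mem_cons_of_mem _ hf')
      have hfm : f ∈ fs := hf f List.mem_cons_self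
      obtain ⟨au, hau⟩ := hpull f.1 fun y hy => hsub ⟨f, hfm, Or.inl hy⟩
      let i : S := ⟨f.2.1, f, hfm, rfl⟩
      have hi : a i ∈ Subgroup.normalClosure (Set.range a) :=
        Subgroup.subset_normalClosure (Set.mem_range_self i)
      have hs : sgn f.2.2 (a i) ∈ Subgroup.normalClosure (Set.range a) := by
        cases f.2.2
        · simpa using hi
        · simpa using hi
      refine ⟨au * sgn f.2.2 (a i) * au⁻¹ * A, ?_, ?_⟩
      · rw [facProd_cons, map_mul, hA1]
        simp only [facTerm, map_mul, map_inv, map_sgn, hau, ha i, i]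
      · exact Subgroup.mul_mem _ (Subgroup.normalClosure_normal.conj_mem _ hs _) hA2
  obtain ⟨A, hA1, hA2⟩ := key fs fun f hf => hf
  obtain ⟨gB, hgB, rfl⟩ := inl_of_jmap B A g (hA1.trans hg.symm)
  have hli' : LinearIndependent ℚ (fun i : S => rowQ (a i)) := by
    have h1 := hli.comp (Subtype.val : S → ι) Subtype.val_injective
    convert h1 using 1
    funext i
    rw [Function.comp, ← ha i, rowQ_jmap]
  have := hB S X a hli' gB hA2
  rw [← hgB, this]
  rfl

theorem main_induction
    (hG : ∀ B : Subgroup G, B.FG → (∀ φ : B →* Multiplicative ℤ, φ = 1) → HowieProp B) :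
    ∀ (μ : ℕ) (X ι : Type) (eq : ι → List (Letter G X)) (fs : List (Fac G X ι)) (g : G),
      LinearIndependent ℚ (fun i => rowQ (ev (eq i))) →
      (inl g : Monoid.Coprod G (FreeGroup X)) = facProd eq fs →
      cost eq fs ≤ μ → g = 1 := by
  intro μ
  induction μ using Nat.strong_induction_on with
  | _ μ IH =>
    intro X ι eq fs g hli hg hcost
    classical
    let B : Subgroup G := Subgroup.closure (coefSet eq fs)
    have hsub : coefSet eq fs ⊆ B := Subgroup.subset_closure
    have hBfg : B.FG := (Subgroup.fg_iff _).2 ⟨coefSet eq fs, rfl, coefSet_finite eq fs⟩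
    by_cases hφ : ∀ φ : B →* Multiplicative ℤ, φ = 1
    · exact base_case B (hG B hBfg hφ).gen eq fs g hsub hli hg
    · push Not at hφ
      obtain ⟨φ, hφ⟩ := hφ
      -- some coefficient has a nonzero image
      have hex : ∃ y, ∃ hy : y ∈ coefSet eq fs, φ ⟨y, hsub hy⟩ ≠ 1 := by
        by_contra hcon
        push Not at hcon
        apply hφ
        ext ⟨b, hb⟩
        have : ∀ (x : G) (hx : x ∈ Subgroup.closure (coefSet eq fs)), φ ⟨x, hx⟩ = 1 := by
          intro x hx
          induction hx using Subgroup.closure_induction with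
          | mem x hx => exact hcon x hx
          | one => exact map_one φ
          | mul x y hx hy ihx ihy =>
            have : (⟨x * y, Subgroup.mul_mem _ hx hy⟩ : B) = ⟨x, hx⟩ * ⟨y, hy⟩ := rfl
            rw [this, map_mul, ihx, ihy, mul_one]
          | inv x hx ih =>
            have : (⟨x⁻¹, Subgroup.inv_mem _ hx⟩ : B) = (⟨x, hx⟩ : B)⁻¹ := rfl
            rw [this, map_inv, ih, inv_one]
        rw [this b hb]
        rfl
      obtain ⟨y, hy, hyφ⟩ := hex
      let ψ0 : B →* Multiplicative ℚ := (AddMonoidHom.toMultiplicative (Int.castAddHom ℚ)).comp φ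
      let ψ : G → ℚ := extψ B ψ0
      have hψ1 : ψ 1 = 0 := extψ_one B ψ0
      have hψy : ψ y ≠ 0 := by
        have h1 : ψ y = Multiplicative.toAdd (ψ0 ⟨y, hsub hy⟩) := extψ_mem B ψ0 ⟨y, hsub hy⟩
        rw [h1]
        intro h0
        apply hyφ
        have h2 : ((Multiplicative.toAdd (φ ⟨y, hsub hy⟩) : ℤ) : ℚ) = 0 := h0
        have h3 : Multiplicative.toAdd (φ ⟨y, hsub hy⟩) = 0 := by exact_mod_cast h2
        exact h3
      -- levels of the unknowns
      obtain ⟨β, hβ⟩ := LinearMap.exists_leftInverse_of_injective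
        (Finsupp.linearCombination ℚ (fun i => rowQ (ev (eq i)))) (LinearMap.ker_eq_bot.2 hli)
      have hβ' : ∀ i, β (rowQ (ev (eq i))) = Finsupp.single i 1 := by
        intro i
        have := LinearMap.congr_fun hβ (Finsupp.single i 1)
        simpa using this
      let L : (X →₀ ℚ) →ₗ[ℚ] ℚ := (Finsupp.linearCombination ℚ (fun i => - csum ψ (eq i))) ∘ₗ β
      let lam : X → ℚ := fun x => L (Finsupp.single x 1)
      have hlvl : ∀ i, lvl ψ lam (eq i) = 0 := by
        intro i
        rw [lvl_eq ψ L (eq i)]
        simp [L, hβ']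
      obtain ⟨y₀, q₀, h0, hlt⟩ := exists_cost_lift_lt ψ hψ1 lam eq fs ⟨y, hy, hψy⟩
      let τ : ℚ → G := Function.update (fun _ => 1) q₀ y₀
      have hτ : τ q₀ = y₀ * τ (q₀ - ψ y₀) := by
        have hne : q₀ - ψ y₀ ≠ q₀ := by
          intro h
          apply h0
          linarith
        simp [τ, Function.update_of_ne hne]
      have hlt' := hlt τ hτ
      have hwit := lift_witness B ψ0 lam τ eq fs hsub (fun f _ => hlvl f.2.1) g hg
      have hli' : LinearIndependent ℚ
          (fun ip : ι × ℚ => rowQ (ev (liftEq ψ lam τ eq ip))) := by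
        have h1 := lifted_linearIndependent (fun i => rowQ (ev (eq i))) hli
          (fun i => rowQ (ev (liftL ψ lam τ 0 (eq i)))) (fun i => rowQ_lift_fst ψ lam τ (eq i) 0)
        convert h1 using 1
        funext ip
        rw [← rowQ_lift_shift ψ lam τ ip.2 (eq ip.1) 0, zero_add]
        rfl
      have hfin := IH _ (lt_of_lt_of_le hlt' hcost) (X × ℚ) (ι × ℚ) (liftEq ψ lam τ eq)
        (fs.map (liftFac ψ lam τ)) ((τ 0)⁻¹ * g * τ 0) hli' hwit le_rfl
      have : g = τ 0 * ((τ 0)⁻¹ * g * τ 0) * (τ 0)⁻¹ := by group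
      rw [this, hfin]
      simp

theorem expMatrix_eq_rowQ {m n : ℕ} (w : Fin m → Monoid.Coprod G (FreeGroup (Fin n))) (i : Fin m)
    (j : Fin n) : expMatrix w i j = rowQ (w i) j := by
  unfold expMatrix
  generalize w i = z
  induction z using Monoid.Coprod.induction_on with
  | inl g => simp [expSum]
  | inr f =>
    induction f using FreeGroup.induction_on with
    | C1 => simp
    | of x =>
      simp only [expSum, Monoid.Coprod.lift_apply_inr, FreeGroup.lift_apply_of, toAdd_ofAdd,
        rowQ_inr_of, Pi.single_apply, Finsupp.single_apply]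
      by_cases h : x = j
      · simp [h]
      · simp [h, Ne.symm h]
    | inv_of x ih => simpa [map_inv] using ih
    | mul x y ihx ihy =>
      simp only [map_mul, toAdd_mul, Pi.add_apply, Int.cast_add, rowQ_mul, Finsupp.add_apply]
        at ihx ihy ⊢
      rw [ihx, ihy]
  | mul x y ihx ihy =>
    simp only [map_mul, toAdd_mul, Pi.add_apply, Int.cast_add, rowQ_mul, Finsupp.add_apply]
      at ihx ihy ⊢
    rw [ihx, ihy]

/-- **Reduction theorem.** If Howie's property holds for every finitely generated subgroup of `G`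
that has no nontrivial homomorphism to `ℤ`, then it holds for `G`. -/
theorem howieProp_of_subgroups
    (hG : ∀ B : Subgroup G, B.FG → (∀ φ : B →* Multiplicative ℤ, φ = 1) → HowieProp B) :
    HowieProp G := by
  intro m n w hw
  rw [solvableOver_iff]
  intro b hb
  choose eq heq using fun i => ev_surjective (w i)
  have hrange : (fun i => ev (eq i)) = w := funext heq
  obtain ⟨fs, hfs⟩ := exists_witness eq (inl b) (by rw [hrange]; exact hb)
  refine main_induction hG _ (Fin n) (Fin m) eq fs b ?_ hfs le_rfl
  simp only [heq]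
  rw [nonsingular_iff] at hw
  apply LinearIndependent.of_comp (Finsupp.linearEquivFunOnFinite ℚ ℚ (Fin n)).toLinearMap
  convert hw using 1
  funext i j
  simp [expMatrix_eq_rowQ]

end Vale.Agent.P174
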