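import Vale.Agent.P174.Lift

/-!
# The homomorphism inducing the lift of words
-/

namespace Vale.Agent.P174

universe u

open Monoid.Coprod

variable {G : Type u} [Group G] {X ι : Type}

/-- The target of the lifting homomorphism. -/
abbrev Wr (G : Type u) [Group G] (X : Type) :=
  SemidirectProduct (ℚ → Monoid.Coprod G (FreeGroup (X × ℚ))) (Multiplicative ℚ)
    (shiftAut (Monoid.Coprod G (FreeGroup (X × ℚ))))

/-- The lifting homomorphism on the coefficient subgroup. -/
noncomputable def PhiB (X : Type) (B : Subgroup G) (ψ0 : B →* Multiplicative ℚ) (τ : ℚ → G) :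
    B →* Wr G X where
  toFun y := ⟨fun q => inl ((τ q)⁻¹ * (y : G) * τ (q - Multiplicative.toAdd (ψ0 y))), ψ0 y⟩
  map_one' := by
    apply SemidirectProduct.ext
    · funext q
      simp
    · simp
  map_mul' y y' := by
    apply SemidirectProduct.ext
    · funext q
      simp only [SemidirectProduct.mul_left, Pi.mul_apply, shiftAut_apply, ← map_mul]
      congr 1
      simp only [map_mul, toAdd_mul, Subgroup.coe_mul, sub_sub]
      group
    · simp

/-- The lifting homomorphism. -/
noncomputable def Phi (B : Subgroup G) (ψ0 : B →* Multiplicative ℚ) (lam : X → ℚ) (τ : ℚ → G) :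
    Monoid.Coprod B (FreeGroup X) →* Wr G X :=
  Monoid.Coprod.lift (PhiB X B ψ0 τ)
    (FreeGroup.lift fun x => ⟨fun q => inr (FreeGroup.of (x, q)), Multiplicative.ofAdd (lam x)⟩)

open Classical in
/-- Extension by zero of a homomorphism `B → ℚ` to a function on `G`. -/
noncomputable def extψ (B : Subgroup G) (ψ0 : B →* Multiplicative ℚ) : G → ℚ :=
  fun y => if h : y ∈ B then Multiplicative.toAdd (ψ0 ⟨y, h⟩) else 0

theorem extψ_mem (B : Subgroup G) (ψ0 : B →* Multiplicative ℚ) (y : B) :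
    extψ B ψ0 (y : G) = Multiplicative.toAdd (ψ0 y) := by
  simp [extψ]

theorem extψ_one (B : Subgroup G) (ψ0 : B →* Multiplicative ℚ) : extψ B ψ0 1 = 0 := by
  have := extψ_mem B ψ0 1
  simpa using this

/-- The natural map `B * F(X) → G * F(X)`. -/
noncomputable abbrev jmap (X : Type) (B : Subgroup G) :
    Monoid.Coprod B (FreeGroup X) →* Monoid.Coprod G (FreeGroup X) :=
  Monoid.Coprod.map B.subtype (MonoidHom.id (FreeGroup X))

theorem jmap_injective (X : Type) (B : Subgroup G) : Function.Injective (jmap X B) :=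
  coprod_map_injective B.subtype B.subtype_injective

theorem Wr.mul_left_apply (w w' : Wr G X) (q : ℚ) :
    (w * w').left q = w.left q * w'.left (q - Multiplicative.toAdd w.right) := rfl

theorem Wr.inv_left_apply (w : Wr G X) (q : ℚ) :
    (w⁻¹).left q = (w.left (q + Multiplicative.toAdd w.right))⁻¹ := by
  rw [SemidirectProduct.inv_left, shiftAut_apply]
  simp

theorem Phi_inl (B : Subgroup G) (ψ0 : B →* Multiplicative ℚ) (lam : X → ℚ) (τ : ℚ → G) (y : B) :
    Phi B ψ0 lam τ (inl y) =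
      ⟨fun q => inl ((τ q)⁻¹ * (y : G) * τ (q - Multiplicative.toAdd (ψ0 y))), ψ0 y⟩ := by
  simp [Phi, PhiB]

theorem Phi_of (B : Subgroup G) (ψ0 : B →* Multiplicative ℚ) (lam : X → ℚ) (τ : ℚ → G) (x : X) :
    Phi B ψ0 lam τ (inr (FreeGroup.of x)) =
      ⟨fun q => inr (FreeGroup.of (x, q)), Multiplicative.ofAdd (lam x)⟩ := by
  simp only [Phi, Monoid.Coprod.lift_apply_inr, FreeGroup.lift_apply_of]

theorem pull_word (B : Subgroup G) (ψ0 : B →* Multiplicative ℚ) (lam : X → ℚ) (τ : ℚ → G)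
    (l : List (Letter G X)) (hl : ∀ y : G, (Sum.inl y : Letter G X) ∈ l → y ∈ B) :
    ∃ a : Monoid.Coprod B (FreeGroup X), jmap X B a = ev l ∧
      (Phi B ψ0 lam τ a).right = Multiplicative.ofAdd (lvl (extψ B ψ0) lam l) ∧
      ∀ q : ℚ, (Phi B ψ0 lam τ a).left q = ev (liftL (extψ B ψ0) lam τ q l) := by
  induction l with
  | nil => exact ⟨1, by simp, by simp, fun q => by simp⟩
  | cons c l ih =>
    obtain ⟨a, ha1, ha2, ha3⟩ := ih fun y hy => hl y (List.mem_cons_of_mem _ hy)
    rcases c with y | ⟨x, s⟩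
    · have hy : y ∈ B := hl y List.mem_cons_self
      have hext : extψ B ψ0 y = Multiplicative.toAdd (ψ0 ⟨y, hy⟩) := extψ_mem B ψ0 ⟨y, hy⟩
      refine ⟨inl ⟨y, hy⟩ * a, ?_, ?_, ?_⟩
      · simp [ha1, evL]
      · rw [map_mul, SemidirectProduct.mul_right, ha2, Phi_inl, lvl_cons, ofAdd_add]
        simp only [lvlL, hext, ofAdd_toAdd]
      · intro q
        rw [map_mul, Wr.mul_left_apply, ha3, Phi_inl, liftL_cons, ev_cons]
        simp only [lvlL, liftLetter, evL, hext]
    · cases s
      · refine ⟨(inr (FreeGroup.of x))⁻¹ * a, ?_, ?_, ?_⟩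
        · simp [ha1, evL]
        · rw [map_mul, map_inv, SemidirectProduct.mul_right, SemidirectProduct.inv_right, ha2,
            Phi_of, lvl_cons, ofAdd_add]
          simp only [lvlL, ofAdd_neg]
        · intro q
          rw [map_mul, map_inv, Wr.mul_left_apply, Wr.inv_left_apply, ha3,
            SemidirectProduct.inv_right, Phi_of, liftL_cons, ev_cons]
          simp only [lvlL, liftLetter, evL, toAdd_inv, toAdd_ofAdd]
      · refine ⟨inr (FreeGroup.of x) * a, ?_, ?_, ?_⟩
        · simp [ha1, evL]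
        · rw [map_mul, SemidirectProduct.mul_right, ha2, Phi_of, lvl_cons, ofAdd_add]
          simp only [lvlL]
        · intro q
          rw [map_mul, Wr.mul_left_apply, ha3, Phi_of, liftL_cons, ev_cons]
          simp only [lvlL, liftLetter, evL, toAdd_ofAdd]

theorem Wr.sgn_right (w : Wr G X) (h : w.right = 1) (s : Bool) : (sgn s w).right = 1 := by
  cases s <;> simp [h]

theorem Wr.sgn_left (w : Wr G X) (h : w.right = 1) (s : Bool) (q : ℚ) :
    (sgn s w).left q = sgn s (w.left q) := by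
  cases s
  · rw [sgn_false, sgn_false, Wr.inv_left_apply, h]
    simp
  · simp

theorem Wr.conj_right (a w : Wr G X) (h : w.right = 1) : (a * w * a⁻¹).right = 1 := by
  simp [h]

theorem Wr.conj_left (a w : Wr G X) (h : w.right = 1) (q : ℚ) :
    (a * w * a⁻¹).left q =
      a.left q * w.left (q - Multiplicative.toAdd a.right) * (a.left q)⁻¹ := by
  rw [Wr.mul_left_apply, Wr.mul_left_apply, Wr.inv_left_apply, SemidirectProduct.mul_right, h]
  simp

theorem inl_of_jmap (B : Subgroup G) (A : Monoid.Coprod B (FreeGroup X)) (g : G)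
    (h : jmap X B A = inl g) : ∃ gB : B, (gB : G) = g ∧ A = inl gB := by
  have hfst : (Monoid.Coprod.fst : Monoid.Coprod G (FreeGroup X) →* G).comp (jmap X B) =
      B.subtype.comp Monoid.Coprod.fst := by
    apply Monoid.Coprod.hom_ext
    · ext b
      simp
    · ext x
      simp
  have h1 := DFunLike.congr_fun hfst A
  simp only [MonoidHom.comp_apply, h, Monoid.Coprod.fst_apply_inl, Subgroup.coe_subtype] at h1
  refine ⟨Monoid.Coprod.fst A, h1.symm, ?_⟩
  apply jmap_injective X B
  rw [h, Monoid.Coprod.map_apply_inl, Subgroup.coe_subtype, ← h1]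

theorem rowQ_jmap (B : Subgroup G) (A : Monoid.Coprod B (FreeGroup X)) :
    rowQ (jmap X B A) = rowQ A := by
  have h : (expoQ G X).comp (jmap X B) = expoQ B X := by
    apply Monoid.Coprod.hom_ext
    · ext b
      simp [expoQ]
    · ext x
      simp [expoQ]
  have h1 := DFunLike.congr_fun h A
  simp only [rowQ, ← h1, MonoidHom.comp_apply]

theorem pull_prod (B : Subgroup G) (ψ0 : B →* Multiplicative ℚ) (lam : X → ℚ) (τ : ℚ → G)
    (eq : ι → List (Letter G X)) (fs : List (Fac G X ι)) (hB : coefSet eq fs ⊆ B)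
    (hlvl : ∀ f ∈ fs, lvl (extψ B ψ0) lam (eq f.2.1) = 0) :
    ∃ A : Monoid.Coprod B (FreeGroup X), jmap X B A = facProd eq fs ∧
      (Phi B ψ0 lam τ A).right = 1 ∧
      (Phi B ψ0 lam τ A).left 0 =
        facProd (liftEq (extψ B ψ0) lam τ eq) (fs.map (liftFac (extψ B ψ0) lam τ)) := by
  induction fs with
  | nil => exact ⟨1, by simp, by simp, by simp⟩
  | cons f fs ih =>
    obtain ⟨A, hA1, hA2, hA3⟩ := ih
      (fun y ⟨f', hf', hy⟩ => hB ⟨f', List.mem_cons_of_mem _ hf', hy⟩)
      (fun f' hf' => hlvl f' (List.mem_cons_of_mem _ hf'))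
    obtain ⟨au, hu1, hu2, hu3⟩ := pull_word B ψ0 lam τ f.1
      (fun y hy => hB ⟨f, List.mem_cons_self, Or.inl hy⟩)
    obtain ⟨ae, he1, he2, he3⟩ := pull_word B ψ0 lam τ (eq f.2.1)
      (fun y hy => hB ⟨f, List.mem_cons_self, Or.inr hy⟩)
    rw [hlvl f List.mem_cons_self, ofAdd_zero] at he2
    have hs := Wr.sgn_right _ he2 f.2.2
    refine ⟨au * sgn f.2.2 ae * au⁻¹ * A, ?_, ?_, ?_⟩
    · rw [facProd_cons, map_mul, hA1]
      simp only [facTerm, map_mul, map_inv, map_sgn, hu1, he1]
    · rw [map_mul, SemidirectProduct.mul_right, hA2, mul_one, map_mul, map_mul, map_inv, map_sgn]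
      exact Wr.conj_right _ _ hs
    · rw [map_mul, Wr.mul_left_apply, map_mul, map_mul, map_inv, map_sgn, Wr.conj_right _ _ hs,
        Wr.conj_left _ _ hs, Wr.sgn_left _ he2, toAdd_one, sub_zero, hA3, List.map_cons,
        facProd_cons, hu3, he3, hu2, toAdd_ofAdd]
      rfl

/-- The lift of a witness is a witness for the lifted system. -/
theorem lift_witness (B : Subgroup G) (ψ0 : B →* Multiplicative ℚ) (lam : X → ℚ) (τ : ℚ → G)
    (eq : ι → List (Letter G X)) (fs : List (Fac G X ι)) (hB : coefSet eq fs ⊆ B)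
    (hlvl : ∀ f ∈ fs, lvl (extψ B ψ0) lam (eq f.2.1) = 0) (g : G)
    (hg : (inl g : Monoid.Coprod G (FreeGroup X)) = facProd eq fs) :
    (inl ((τ 0)⁻¹ * g * τ 0) : Monoid.Coprod G (FreeGroup (X × ℚ))) =
      facProd (liftEq (extψ B ψ0) lam τ eq) (fs.map (liftFac (extψ B ψ0) lam τ)) := by
  obtain ⟨A, hA1, hA2, hA3⟩ := pull_prod B ψ0 lam τ eq fs hB hlvl
  obtain ⟨gB, hgB, rfl⟩ := inl_of_jmap B A g (hA1.trans hg.symm)
  rw [Phi_inl] at hA2 hA3
  simp only at hA2 hA3
  rw [← hA3, hA2, hgB]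
  simp

end Vale.Agent.P174
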