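import Vale.Agent.P174.General

/-!
# Words, evaluation and explicit witnesses for membership in a normal closure
-/

namespace Vale.Agent.P174

universe u

open Monoid.Coprod

variable {G : Type u} [Group G] {X ι : Type}

/-- Letters: a coefficient from `G`, or an unknown with a sign. -/
abbrev Letter (G : Type u) (X : Type) := G ⊕ (X × Bool)

/-- Evaluation of a letter in `G * F(X)`. -/
noncomputable def evL : Letter G X → Monoid.Coprod G (FreeGroup X)
  | .inl g => inl g
  | .inr (x, true) => inr (FreeGroup.of x)
  | .inr (x, false) => (inr (FreeGroup.of x))⁻¹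

/-- Evaluation of a word in `G * F(X)`. -/
noncomputable def ev (l : List (Letter G X)) : Monoid.Coprod G (FreeGroup X) := (l.map evL).prod

@[simp] theorem ev_nil : ev ([] : List (Letter G X)) = 1 := rfl

@[simp] theorem ev_cons (c : Letter G X) (l : List (Letter G X)) : ev (c :: l) = evL c * ev l := by
  simp [ev]

@[simp] theorem ev_append (l l' : List (Letter G X)) : ev (l ++ l') = ev l * ev l' := by
  simp [ev]

theorem ev_surjective : Function.Surjective (ev : List (Letter G X) → _) := by
  intro z
  induction z using Monoid.Coprod.induction_on with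
  | inl g => exact ⟨[.inl g], by simp [evL]⟩
  | inr f =>
    induction f using FreeGroup.induction_on with
    | C1 => exact ⟨[], by simp⟩
    | of x => exact ⟨[.inr (x, true)], by simp [evL]⟩
    | inv_of x _ => exact ⟨[.inr (x, false)], by simp [evL]⟩
    | mul x y ihx ihy =>
      obtain ⟨l, hl⟩ := ihx
      obtain ⟨l', hl'⟩ := ihy
      exact ⟨l ++ l', by simp [hl, hl']⟩
  | mul x y ihx ihy =>
    obtain ⟨l, hl⟩ := ihx
    obtain ⟨l', hl'⟩ := ihy
    exact ⟨l ++ l', by simp [hl, hl']⟩

/-- A factor of a witness: a conjugator word, the index of an equation and a sign. -/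
abbrev Fac (G : Type u) (X ι : Type) := List (Letter G X) × ι × Bool

/-- `z` or its inverse, according to a sign. -/
def sgn {M : Type*} [Group M] (s : Bool) (z : M) : M := if s then z else z⁻¹

@[simp] theorem sgn_true {M : Type*} [Group M] (z : M) : sgn true z = z := rfl
@[simp] theorem sgn_false {M : Type*} [Group M] (z : M) : sgn false z = z⁻¹ := rfl

theorem sgn_inv {M : Type*} [Group M] (s : Bool) (z : M) : (sgn s z)⁻¹ = sgn (!s) z := by
  cases s <;> simp

theorem map_sgn {M N : Type*} [Group M] [Group N] (f : M →* N) (s : Bool) (z : M) :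
    f (sgn s z) = sgn s (f z) := by
  cases s <;> simp

/-- The element of `G * F(X)` represented by a factor. -/
noncomputable def facTerm (eq : ι → List (Letter G X)) (f : Fac G X ι) :
    Monoid.Coprod G (FreeGroup X) :=
  ev f.1 * sgn f.2.2 (ev (eq f.2.1)) * (ev f.1)⁻¹

/-- The element represented by a list of factors. -/
noncomputable def facProd (eq : ι → List (Letter G X)) (fs : List (Fac G X ι)) :
    Monoid.Coprod G (FreeGroup X) :=
  (fs.map (facTerm eq)).prod

@[simp] theorem facProd_nil (eq : ι → List (Letter G X)) : facProd eq [] = 1 := rfl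

@[simp] theorem facProd_cons (eq : ι → List (Letter G X)) (f : Fac G X ι) (fs : List (Fac G X ι)) :
    facProd eq (f :: fs) = facTerm eq f * facProd eq fs := by
  simp [facProd]

@[simp] theorem facProd_append (eq : ι → List (Letter G X)) (fs fs' : List (Fac G X ι)) :
    facProd eq (fs ++ fs') = facProd eq fs * facProd eq fs' := by
  simp [facProd]

theorem exists_facProd_inv (eq : ι → List (Letter G X)) (fs : List (Fac G X ι)) :
    ∃ fs', facProd eq fs' = (facProd eq fs)⁻¹ := by
  induction fs with
  | nil => exact ⟨[], by simp⟩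
  | cons f fs ih =>
    obtain ⟨fs', h⟩ := ih
    refine ⟨fs' ++ [(f.1, f.2.1, !f.2.2)], ?_⟩
    simp only [facProd_append, h, facProd_cons, facProd_nil, mul_one, mul_inv_rev]
    congr 1
    simp only [facTerm, mul_inv_rev, inv_inv, sgn_inv, mul_assoc]

/-- Every element of the normal closure of a system has an explicit witness. -/
theorem exists_witness (eq : ι → List (Letter G X)) (z : Monoid.Coprod G (FreeGroup X))
    (hz : z ∈ Subgroup.normalClosure (Set.range fun i => ev (eq i))) :
    ∃ fs : List (Fac G X ι), z = facProd eq fs := by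
  unfold Subgroup.normalClosure at hz
  induction hz using Subgroup.closure_induction with
  | mem x hx =>
    rw [Group.mem_conjugatesOfSet_iff] at hx
    obtain ⟨_, ⟨i, rfl⟩, hc⟩ := hx
    rw [isConj_iff] at hc
    obtain ⟨c, rfl⟩ := hc
    obtain ⟨u, rfl⟩ := ev_surjective c
    exact ⟨[(u, i, true)], by simp [facTerm]⟩
  | one => exact ⟨[], by simp⟩
  | mul x y _ _ ihx ihy =>
    obtain ⟨l, rfl⟩ := ihx
    obtain ⟨l', rfl⟩ := ihy
    exact ⟨l ++ l', by simp⟩
  | inv x _ ih =>
    obtain ⟨l, rfl⟩ := ih
    obtain ⟨l', h⟩ := exists_facProd_inv eq l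
    exact ⟨l', h.symm⟩

/-- A product of factors lies in the normal closure of the equations that are used. -/
theorem facProd_mem {M : Type*} [Group M] (N : Subgroup M) [N.Normal]
    (F : Monoid.Coprod G (FreeGroup X) →* M)
    (eq : ι → List (Letter G X)) (fs : List (Fac G X ι))
    (h : ∀ f ∈ fs, F (ev (eq f.2.1)) ∈ N) : F (facProd eq fs) ∈ N := by
  induction fs with
  | nil => simp
  | cons f fs ih =>
    rw [facProd_cons, map_mul]
    refine N.mul_mem ?_ (ih fun f' hf' => h f' (List.mem_cons_of_mem _ hf'))
    have h1 : F (sgn f.2.2 (ev (eq f.2.1))) ∈ N := by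
      have := h f List.mem_cons_self
      cases hs : f.2.2 <;> simp [N.inv_mem_iff, this]
    simp only [facTerm, map_mul, map_inv]
    exact ‹N.Normal›.conj_mem _ h1 _

open Classical in
/-- `1` for a nontrivial coefficient letter, `0` otherwise. -/
noncomputable def cntL : Letter G X → ℕ
  | .inl g => if g = 1 then 0 else 1
  | .inr _ => 0

/-- The number of nontrivial coefficient letters of a word. -/
noncomputable def cnt (l : List (Letter G X)) : ℕ := (l.map cntL).sum

@[simp] theorem cnt_nil : cnt ([] : List (Letter G X)) = 0 := rfl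

@[simp] theorem cnt_cons (c : Letter G X) (l : List (Letter G X)) :
    cnt (c :: l) = cntL c + cnt l := by
  simp [cnt]

/-- The complexity of a witness. -/
noncomputable def cost (eq : ι → List (Letter G X)) (fs : List (Fac G X ι)) : ℕ :=
  (fs.map fun f => cnt f.1 + cnt (eq f.2.1)).sum

@[simp] theorem cost_nil (eq : ι → List (Letter G X)) : cost eq [] = 0 := rfl

@[simp] theorem cost_cons (eq : ι → List (Letter G X)) (f : Fac G X ι) (fs : List (Fac G X ι)) :
    cost eq (f :: fs) = cnt f.1 + cnt (eq f.2.1) + cost eq fs := by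
  simp [cost]

/-- The set of coefficients occurring in a witness. -/
def coefSet (eq : ι → List (Letter G X)) (fs : List (Fac G X ι)) : Set G :=
  {g | ∃ f ∈ fs, (Sum.inl g : Letter G X) ∈ f.1 ∨ (Sum.inl g : Letter G X) ∈ eq f.2.1}

theorem finite_coef (l : List (Letter G X)) : {g : G | (Sum.inl g : Letter G X) ∈ l}.Finite := by
  have : {g : G | (Sum.inl g : Letter G X) ∈ l} = Sum.inl ⁻¹' {c | c ∈ l} := rfl
  rw [this]
  exact (List.finite_toSet l).preimage Sum.inl_injective.injOn

theorem coefSet_finite (eq : ι → List (Letter G X)) (fs : List (Fac G X ι)) :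
    (coefSet eq fs).Finite := by
  have : coefSet eq fs = ⋃ f ∈ {f | f ∈ fs}, ({g : G | (Sum.inl g : Letter G X) ∈ f.1} ∪
      {g : G | (Sum.inl g : Letter G X) ∈ eq f.2.1}) := by
    ext g
    simp [coefSet]
  rw [this]
  exact (List.finite_toSet fs).biUnion fun f _ => (finite_coef _).union (finite_coef _)

end Vale.Agent.P174
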